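import Vale.Agent.P196.Full.Tiles.Geom.Block

/-!
# P196: matching cells are cut into blocks in exactly one way
-/

namespace Vale.Agent.P196.Full.Tiles.Geo

variable {M : ℕ} {h w : ℤ → ℤ → GCol} {x y ox oy : ℤ} {i j d : ℕ}

theorem outK_eq_zero {M j : ℕ} (e : outK M j = 0) : j = 0 := by
  unfold outK at e
  split_ifs at e with h0 h1 h2
  · exact h0
  all_goals exact absurd e (by decide)

theorem chainBL (c : Cfg M h w) (a : At M h w x y 0 0) :
    ∀ n : ℕ, n + K ≤ M → At M h w (x + n) (y + n) n n := by
  intro n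
  induction n with
  | zero => intro _; exact a.congr (by simp) (by simp) rfl rfl
  | succ n ih =>
    intro hn
    exact ((ih (by omega)).upBL c (by omega)).congr (by push_cast; ring) (by push_cast; ring) rfl rfl

theorem chainBR (c : Cfg M h w) (a : At M h w x y (2 * M - 1) 0) :
    ∀ n : ℕ, n + K ≤ M → At M h w (x - n) (y + n) (2 * M - 1 - n) n := by
  intro n
  induction n with
  | zero => intro _; exact a.congr (by simp) (by simp) rfl rfl
  | succ n ih =>
    intro hn
    exact ((ih (by omega)).upBR c (by omega) (by omega)).congr (by push_cast; ring)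
      (by push_cast; ring) (by omega) rfl

theorem next_right (c : Cfg M h w) (H : Sq M h w ox oy 0) :
    Sq M h w (ox + 2 * M) oy 0 := by
  have := one_le_K
  have hM := c.large
  obtain ⟨p, q, b⟩ := c.cell (ox + 2 * M) oy
  have e := b.l.symm.trans (H.1 (2 * M) 0 _ _ (by push_cast; ring) (by simp) (by omega) (by omega)
    le_rfl (by omega))
  rw [geoH_outer (i := 2 * M) (Or.inr rfl)] at e
  obtain ⟨hp, hq⟩ := outer_inv e
  have hq0 : q = 0 := outK_eq_zero (hq.trans (by simp [outK]))
  have hp0 : p = 0 := by have := b.lt_i; omega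
  subst hq0 hp0
  have := block_of_tag c (chainBL c b (M - K) (by omega)) (by omega) (by omega) (by omega)
    (by omega)
  convert this using 1 <;> omega

theorem next_left (c : Cfg M h w) (H : Sq M h w ox oy 0) :
    Sq M h w (ox - 2 * M) oy 0 := by
  have := one_le_K
  have hM := c.large
  obtain ⟨p, q, b⟩ := c.cell (ox - 1) oy
  have e := b.r
  rw [sub_add_cancel, H.1 0 0 _ _ (by simp) (by simp) le_rfl (by omega) le_rfl (by omega),
    geoH_outer (Or.inl rfl)] at e
  obtain ⟨hp, hq⟩ := outer_inv e.symm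
  have hq0 : q = 0 := outK_eq_zero (hq.trans (by simp [outK]))
  have hp0 : p = 2 * M - 1 := by have := b.lt_i; omega
  subst hq0 hp0
  have := block_of_tag c (chainBR c b (M - K) (by omega)) (by omega) (by omega) (by omega)
    (by omega)
  convert this using 1 <;> omega

theorem Sq.swap (H : Sq M h w ox oy d) : Sq M (Geo.swap w) (Geo.swap h) oy ox d := ⟨H.2, H.1⟩

theorem row_of_blocks (c : Cfg M h w) (H : Sq M h w ox oy 0) (k : ℤ) :
    Sq M h w (ox + 2 * M * k) oy 0 := by
  induction k using Int.induction_on with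
  | zero => simpa using H
  | succ n ih => convert next_right c ih using 1; ring
  | pred n ih => convert next_left c ih using 1; ring

theorem grid_of_block (c : Cfg M h w) (H : Sq M h w ox oy 0) (k l : ℤ) :
    Sq M h w (ox + 2 * M * k) (oy + 2 * M * l) 0 :=
  (row_of_blocks c.swap (row_of_blocks c H k).swap l).swap

/-- Some cell lies in a centre. -/
theorem exists_tag (c : Cfg M h w) : ∃ x y i j, At M h w x y i j ∧ M ≤ i + K ∧ i < M + K ∧
    M ≤ j + K ∧ j < M + K := by
  have := one_le_K
  have hM := c.large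
  suffices ∀ n, ∀ {h w : ℤ → ℤ → GCol}, Cfg M h w → ∀ {x y : ℤ} {p q : ℕ}, At M h w x y p q →
      M ≤ min (min p q) (min (2 * M - 1 - p) (2 * M - 1 - q)) + n →
      ∃ x y i j, At M h w x y i j ∧ M ≤ i + K ∧ i < M + K ∧ M ≤ j + K ∧ j < M + K by
    obtain ⟨p, q, a⟩ := c.cell 0 0
    exact this M c a (by omega)
  intro n
  induction n with
  | zero =>
    intro h w c x y p q a hn
    exact ⟨x, y, p, q, a, by omega, by omega, by omega, by omega⟩
  | succ n ih =>
    intro h w c x y p q a hn
    have := a.lt_i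
    have := a.lt_j
    by_cases ht : M ≤ p + K ∧ p < M + K ∧ M ≤ q + K ∧ q < M + K
    · exact ⟨x, y, p, q, a, ht⟩
    -- a corner, or a cell of the bottom or top zone; otherwise transpose
    have main : ∀ {h w : ℤ → ℤ → GCol}, Cfg M h w → ∀ {x y : ℤ} {p q : ℕ}, At M h w x y p q →
        M ≤ min (min p q) (min (2 * M - 1 - p) (2 * M - 1 - q)) + (n + 1) →
        (q + K < M ∧ q ≤ p ∧ p + q < 2 * M ∨ M + K ≤ q ∧ p ≤ q ∧ 2 * M ≤ p + q + 1) →
        ∃ x y i j, At M h w x y i j ∧ M ≤ i + K ∧ i < M + K ∧ M ≤ j + K ∧ j < M + K := by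
      intro h w c x y p q a hn hz
      have := a.lt_i
      have := a.lt_j
      by_cases hd : p = q
      · subst hd
        rcases hz with hz | hz
        · exact ih c (a.upBL c hz.1) (by omega)
        · exact ih c (a.downTR c hz.1) (by omega)
      by_cases hd' : p + q + 1 = 2 * M
      · rcases hz with hz | hz
        · exact ih c (a.upBR c hd' hz.1) (by omega)
        · obtain ⟨X, Y, i, j, b, h1, h2, h3, h4⟩ :=
            ih c.swap (a.swap.upBR c.swap (by omega) (by omega)) (by omega)
          exact ⟨Y, X, j, i, b.swap, h3, h4, h1, h2⟩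
      rcases hz with ⟨hqK, h1, h2⟩ | ⟨hqK, h1, h2⟩
      · obtain ⟨p', q', b⟩ := c.cell x (y + 1)
        have := b.lt_i
        have := b.lt_j
        have e := b.d.symm.trans a.u
        rcases Nat.lt_or_ge (q + 1 + K) M with hs | hs
        · rw [geoH_left (j := p) (by omega) hs (by omega) (by omega)] at e
          obtain ⟨_, _, _, _, _, _⟩ := left_inv e
          exact ih c b (by omega)
        · rw [geoH_tag hM (i := q + 1) (j := p) (by omega) (by omega) (by omega) (by omega)] at e
          obtain ⟨_, _, _, _, _, _⟩ := tag_inv e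
          exact ih c b (by omega)
      · obtain ⟨p', q', b⟩ := c.cell x (y - 1)
        have := b.lt_i
        have := b.lt_j
        have e := b.u
        rw [sub_add_cancel, a.d] at e
        rcases Nat.lt_or_ge (M + K) q with hs | hs
        · rw [geoH_right (j := p) a.lt_j hs (by omega) (by omega)] at e
          obtain ⟨_, _, _, _, _, _⟩ := right_inv (show q' + 1 ≤ 2 * M by omega) b.lt_i e.symm
          exact ih c b (by omega)
        · rw [geoH_tag hM (i := q) (j := p) (by omega) hs (by omega) (by omega)] at e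
          obtain ⟨_, _, _, _, _, _⟩ := tag_inv e.symm
          exact ih c b (by omega)
    by_cases hz : q + K < M ∧ q ≤ p ∧ p + q < 2 * M ∨ M + K ≤ q ∧ p ≤ q ∧ 2 * M ≤ p + q + 1
    · exact main c a hn hz
    · obtain ⟨X, Y, i, j, b, h1, h2, h3, h4⟩ := main c.swap a.swap (by omega) (by omega)
      exact ⟨Y, X, j, i, b.swap, h3, h4, h1, h2⟩

/-- A configuration of cells of a block is cut into blocks. -/
theorem exists_block (c : Cfg M h w) : ∃ ox oy, Sq M h w ox oy 0 := by
  obtain ⟨x, y, i, j, a, h1, h2, h3, h4⟩ := exists_tag c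
  exact ⟨_, _, block_of_tag c a h1 h2 h3 h4⟩

/-- The colours of the bottom left cell of a block occur at no other cell. -/
theorem origin_unique (c : Cfg M h w) (H : Sq M h w ox oy 0) (a : At M h w x y 0 0) :
    ∃ k l : ℤ, x = ox + 2 * M * k ∧ y = oy + 2 * M * l := by
  have := one_le_K
  have hM := c.large
  have hpos : (0 : ℤ) < 2 * M := by omega
  obtain ⟨k, hk⟩ : ∃ k, k = (x - ox) / (2 * M : ℤ) := ⟨_, rfl⟩
  obtain ⟨l, hl⟩ : ∃ l, l = (y - oy) / (2 * M : ℤ) := ⟨_, rfl⟩
  refine ⟨k, l, ?_⟩
  have b := (grid_of_block c H k l).at_cell (i := ((x - ox) % (2 * M : ℤ)).toNat)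
    (j := ((y - oy) % (2 * M : ℤ)).toNat)
    (by have := Int.emod_lt_of_pos (x - ox) hpos
        have := Int.emod_nonneg (x - ox) hpos.ne'
        omega)
    (by have := Int.emod_lt_of_pos (y - oy) hpos
        have := Int.emod_nonneg (y - oy) hpos.ne'
        omega)
  have hx := Int.emod_add_mul_ediv (x - ox) (2 * M : ℤ)
  have hy := Int.emod_add_mul_ediv (y - oy) (2 * M : ℤ)
  rw [← hk] at hx
  rw [← hl] at hy
  have nx := Int.emod_nonneg (x - ox) hpos.ne'
  have ny := Int.emod_nonneg (y - oy) hpos.ne'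
  have b' := b.congr (x' := x) (y' := y) (by omega) (by omega) rfl rfl
  have bi := b'.lt_i
  have bj := b'.lt_j
  have e1 := a.l.symm.trans b'.l
  have e2 := a.d.symm.trans b'.d
  rw [geoH_outer (i := 0) (Or.inl rfl)] at e1 e2
  obtain ⟨hi, -⟩ := outer_inv e1.symm
  obtain ⟨hj, -⟩ := outer_inv e2.symm
  omega

end Vale.Agent.P196.Full.Tiles.Geo
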