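import Vale.Agent.P196.Full.Tiles.Geom.Cell

/-!
# P196: one tagged cell forces a whole block
-/

namespace Vale.Agent.P196.Full.Tiles.Geo

variable {M : ℕ} {h w : ℤ → ℤ → GCol} {x y ox oy : ℤ} {i j d : ℕ}

/-- The colours of the block with origin `(ox, oy)` are right on the vertical edges of the square
that is left after deleting `d` rings. -/
def SqH (M : ℕ) (h : ℤ → ℤ → GCol) (ox oy : ℤ) (d : ℕ) : Prop :=
  ∀ (i j : ℕ) (X Y : ℤ), X = ox + i → Y = oy + j → d ≤ i → i + d ≤ 2 * M → d ≤ j →
    j + d < 2 * M → h X Y = geoH M i j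

/-- The same for both directions of edges. -/
def Sq (M : ℕ) (h w : ℤ → ℤ → GCol) (ox oy : ℤ) (d : ℕ) : Prop :=
  SqH M h ox oy d ∧ SqH M (swap w) oy ox d

/-- A cell of the centre forces every cell of the centre. -/
theorem tag_fill (c : Cfg M h w) (a : At M h w x y i j) (hi : M ≤ i + K) (hi' : i < M + K)
    (hj : M ≤ j + K) (hj' : j < M + K) {i' j' : ℕ} (gi : M ≤ i' + K) (gi' : i' < M + K)
    (gj : M ≤ j' + K) (gj' : j' < M + K) :
    At M h w (x - i + i') (y - j + j') i' j' := by
  have row : ∀ {h w : ℤ → ℤ → GCol} {x y : ℤ} {i j : ℕ}, Cfg M h w → At M h w x y i j →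
      M ≤ i + K → i < M + K → M ≤ j + K → j < M + K → ∀ {i' : ℕ}, M ≤ i' + K → i' < M + K →
      At M h w (x - i + i') y i' j := by
    intro h w x y i j c a hi hi' hj hj' i' gi gi'
    have right : ∀ n : ℕ, i + n < M + K → At M h w (x + n) y (i + n) j := by
      intro n
      induction n with
      | zero => intro _; exact a.congr (by simp) rfl rfl rfl
      | succ n ih =>
        intro hn
        exact ((ih (by omega)).moveR c (by omega) (by omega) hj hj').congr
          (by push_cast; ring) rfl (by omega) rfl
    have left : ∀ n : ℕ, M + n ≤ i + K → n ≤ i → At M h w (x - n) y (i - n) j := by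
      intro n
      induction n with
      | zero => intro _ _; exact a.congr (by simp) rfl rfl rfl
      | succ n ih =>
        intro hn hn'
        exact ((ih (by omega) (by omega)).moveL c (by omega) (by omega) hj hj').congr
          (by push_cast; ring) rfl (by omega) rfl
    rcases Nat.le_total i i' with hle | hle
    · exact (right (i' - i) (by omega)).congr (by omega) rfl (by omega) rfl
    · exact (left (i - i') (by omega) (by omega)).congr (by omega) rfl (by omega) rfl
  have a1 := row c a hi hi' hj hj' gi gi'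
  exact (row c.swap a1.swap hj hj' gi gi' gj gj').swap

theorem sq_base (c : Cfg M h w) (a : At M h w x y i j) (hi : M ≤ i + K) (hi' : i < M + K)
    (hj : M ≤ j + K) (hj' : j < M + K) : Sq M h w (x - i) (y - j) (M - K) := by
  have := one_le_K
  have hM := c.large
  have side : ∀ {h w : ℤ → ℤ → GCol} {x y : ℤ} {i j : ℕ}, Cfg M h w → At M h w x y i j →
      M ≤ i + K → i < M + K → M ≤ j + K → j < M + K → SqH M h (x - i) (y - j) (M - K) := by
    intro h w x y i j c a hi hi' hj hj' i' j' X Y hX hY g1 g2 g3 g4
    subst hX hY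
    rcases Nat.lt_or_ge i' (M + K) with hlt | hge
    · exact (tag_fill c a hi hi' hj hj' (by omega) hlt (by omega) (by omega)).l
    · have b := (tag_fill c a hi hi' hj hj' (i' := i' - 1) (j' := j') (by omega) (by omega)
        (by omega) (by omega)).r
      rw [show i' - 1 + 1 = i' by omega] at b
      rw [show x - (i : ℤ) + ((i' - 1 : ℕ) : ℤ) + 1 = x - i + i' by omega] at b
      exact b
  exact ⟨side c a hi hi' hj hj', side c.swap a.swap hj hj' hi hi'⟩

/-- The two rows of a ring. -/
theorem ring_row (c : Cfg M h w) (H : Sq M h w ox oy (d + 1)) (hd : d + K < M) :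
    ∀ (i j : ℕ) (X Y : ℤ), X = ox + i → Y = oy + j → d + 1 ≤ i → i + d + 1 ≤ 2 * M →
      (j = d ∨ j + d + 1 = 2 * M) → h X Y = geoH M i j := by
  have := one_le_K
  intro i j X Y hX hY hi hi' hj
  subst hX hY
  rcases hj with rfl | hj
  · have inner : ∀ i : ℕ, j + 1 ≤ i → i + j + 1 < 2 * M →
        h (ox + i + 1) (oy + j) = geoH M (i + 1) j ∧
          (i < M → h (ox + i) (oy + j) = geoH M i j) := fun i h1 h2 =>
      have := bottom_step c (x := ox + i) (y := oy + j) (by omega) h2 hd
        (H.2 (j + 1) i (oy + j + 1) (ox + i) (by omega) rfl le_rfl (by omega) h1 (by omega))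
      ⟨this.1, this.2.2⟩
    rcases Nat.eq_or_lt_of_le hi with hi0 | hi0
    · exact (inner i hi (by omega)).2 (by omega)
    · have := (inner (i - 1) (by omega) (by omega)).1
      rw [show i - 1 + 1 = i by omega,
        show ox + ((i - 1 : ℕ) : ℤ) + 1 = ox + i by omega] at this
      exact this
  · have inner : ∀ i : ℕ, d + 1 ≤ i → i + d + 1 < 2 * M →
        h (ox + i + 1) (oy + j) = geoH M (i + 1) j ∧
          (i < M → h (ox + i) (oy + j) = geoH M i j) := fun i h1 h2 =>
      have := top_step c (x := ox + i) (y := oy + j) (by omega) (by omega) (by omega) (by omega)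
        (H.2 j i (oy + j) (ox + i) rfl rfl (by omega) (by omega) h1 (by omega))
      ⟨this.1, this.2.2⟩
    rcases Nat.eq_or_lt_of_le hi with hi0 | hi0
    · exact (inner i hi (by omega)).2 (by omega)
    · have := (inner (i - 1) (by omega) (by omega)).1
      rw [show i - 1 + 1 = i by omega,
        show ox + ((i - 1 : ℕ) : ℤ) + 1 = ox + i by omega] at this
      exact this

/-- One more ring: vertical edges. -/
theorem sqH_step (c : Cfg M h w) (H : Sq M h w ox oy (d + 1)) (hd : d + K < M) :
    SqH M h ox oy d := by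
  have := one_le_K
  have hM := c.large
  intro i j X Y hX hY hi hi' hj hj'
  subst hX hY
  have row := ring_row c H hd
  have col := ring_row c.swap (ox := oy) (oy := ox) ⟨H.2, H.1⟩ hd
  by_cases hin : d + 1 ≤ i ∧ i + d + 1 ≤ 2 * M
  · by_cases hjn : d + 1 ≤ j ∧ j + d + 1 < 2 * M
    · exact H.1 i j _ _ rfl rfl hin.1 (by omega) hjn.1 (by omega)
    · exact row i j _ _ rfl rfl hin.1 hin.2 (by omega)
  · rcases (show i = d ∨ i + d = 2 * M by omega) with rfl | hie
    · rcases Nat.eq_or_lt_of_le hj with rfl | hj0
      · exact (cornerBL c hd (row (i + 1) i _ _ (by omega) rfl le_rfl (by omega) (Or.inl rfl))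
          (col (i + 1) i _ _ (by omega) rfl le_rfl (by omega) (Or.inl rfl))).l
      · rcases Nat.lt_or_ge (j + i + 1) (2 * M) with hjl | hjl
        · exact (bottom_step c.swap (x := oy + j) (y := ox + i) hj0 hjl hd
            (H.1 (i + 1) j _ _ (by omega) rfl le_rfl (by omega) hj0 hjl)).2.1
        · exact (cornerBR c.swap (x := oy + j) (y := ox + i) (i := j) (d := i) (by omega) hd
            (col j i _ _ rfl rfl hj0 (by omega) (Or.inl rfl))
            (row (i + 1) j _ _ (by omega) rfl le_rfl (by omega) (Or.inr (by omega)))).d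
    · obtain ⟨i', rfl⟩ : ∃ i', i = i' + 1 := ⟨i - 1, by omega⟩
      rw [show ox + ((i' + 1 : ℕ) : ℤ) = ox + i' + 1 by omega]
      rcases Nat.eq_or_lt_of_le hj with rfl | hj0
      · exact (cornerBR c (x := ox + i') (y := oy + d) (by omega) hd
          (row i' d _ _ rfl rfl (by omega) (by omega) (Or.inl rfl))
          (col (d + 1) i' _ _ (by omega) rfl le_rfl (by omega) (Or.inr (by omega)))).r
      · rcases Nat.lt_or_ge (j + d + 1) (2 * M) with hjl | hjl
        · exact (top_step c.swap (x := oy + j) (y := ox + i') (j := i') (by omega) (by omega)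
            (by omega) (by omega)
            (H.1 i' j _ _ rfl rfl (by omega) (by omega) hj0 hjl)).2.1
        · obtain rfl : j = i' := by omega
          exact (cornerTR c (x := ox + j) (y := oy + j) (by omega) (by omega)
            (row j j _ _ rfl rfl (by omega) (by omega) (Or.inr (by omega)))
            (col j j _ _ rfl rfl (by omega) (by omega) (Or.inr (by omega)))).r

/-- A cell of the centre forces the whole block. -/
theorem block_of_tag (c : Cfg M h w) (a : At M h w x y i j) (hi : M ≤ i + K) (hi' : i < M + K)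
    (hj : M ≤ j + K) (hj' : j < M + K) : Sq M h w (x - i) (y - j) 0 := by
  have := one_le_K
  have hM := c.large
  suffices ∀ n, n + K ≤ M → Sq M h w (x - i) (y - j) (M - K - n) by
    simpa using this (M - K) (by omega)
  intro n
  induction n with
  | zero => intro _; simpa using sq_base c a hi hi' hj hj'
  | succ n ih =>
    intro hn
    have H := ih (by omega)
    rw [show M - K - n = M - K - (n + 1) + 1 by omega] at H
    exact ⟨sqH_step c H (by omega), sqH_step c.swap ⟨H.2, H.1⟩ (by omega)⟩

/-- The cells of a block. -/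
theorem Sq.at_cell (H : Sq M h w ox oy 0) (hi : i < 2 * M) (hj : j < 2 * M) :
    At M h w (ox + i) (oy + j) i j :=
  ⟨hi, hj, H.1 i j _ _ rfl rfl (by omega) (by omega) (by omega) (by omega),
    H.1 (i + 1) j _ _ (by omega) rfl (by omega) (by omega) (by omega) (by omega),
    H.2 j i _ _ rfl rfl (by omega) (by omega) (by omega) (by omega),
    H.2 (j + 1) i _ _ (by omega) rfl (by omega) (by omega) (by omega) (by omega)⟩

end Vale.Agent.P196.Full.Tiles.Geo
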