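import Vale.Agent.P196.Full.Tiles.Geom.Colour

/-!
# P196: what a cell forces on its neighbours

A configuration is given by the colours `h` of its vertical edges and the transposed colours `w`
of its horizontal edges, so that transposing the plane exchanges `h` and `w`.
-/

namespace Vale.Agent.P196.Full.Tiles.Geo

/-- The cell `(x, y)` has the four colours of the cell `(i, j)` of a block. -/
structure At (M : ℕ) (h w : ℤ → ℤ → GCol) (x y : ℤ) (i j : ℕ) : Prop where
  lt_i : i < 2 * M
  lt_j : j < 2 * M
  l : h x y = geoH M i j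
  r : h (x + 1) y = geoH M (i + 1) j
  d : w x y = geoH M j i
  u : w x (y + 1) = geoH M (j + 1) i

/-- Every cell has the colours of some cell of a block. -/
structure Cfg (M : ℕ) (h w : ℤ → ℤ → GCol) : Prop where
  large : 4 * K ≤ M
  cell : ∀ x y, ∃ i j, At M h w x y i j

/-- Transposition of an edge colouring. -/
def swap (h : ℤ → ℤ → GCol) : ℤ → ℤ → GCol := fun x y => h y x

variable {M : ℕ} {h w : ℤ → ℤ → GCol} {x y : ℤ} {i j d : ℕ}

theorem At.swap (a : At M h w x y i j) : At M (swap w) (Geo.swap h) y x j i :=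
  ⟨a.lt_j, a.lt_i, a.d, a.u, a.l, a.r⟩

theorem Cfg.swap (c : Cfg M h w) : Cfg M (swap w) (Geo.swap h) :=
  ⟨c.large, fun x y => let ⟨i, j, a⟩ := c.cell y x; ⟨j, i, a.swap⟩⟩

theorem At.congr {x' y' : ℤ} {i' j' : ℕ} (a : At M h w x y i j) (hx : x = x') (hy : y = y')
    (hi : i = i') (hj : j = j') : At M h w x' y' i' j' := by
  subst hx hy hi hj
  exact a

theorem At.moveR (c : Cfg M h w) (a : At M h w x y i j) (h1 : M ≤ i + K) (h2 : i + 1 < M + K)
    (h3 : M ≤ j + K) (h4 : j < M + K) : At M h w (x + 1) y (i + 1) j := by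
  obtain ⟨p, q, b⟩ := c.cell (x + 1) y
  have e := b.l.symm.trans a.r
  rw [geoH_tag c.large (i := i + 1) (by omega) (by omega) h3 h4] at e
  obtain ⟨_, _, _, _, _, _⟩ := tag_inv e
  exact b.congr rfl rfl (by omega) (by omega)

theorem At.moveL (c : Cfg M h w) (a : At M h w x y i j) (h1 : M < i + K) (h2 : i < M + K)
    (h3 : M ≤ j + K) (h4 : j < M + K) : At M h w (x - 1) y (i - 1) j := by
  obtain ⟨p, q, b⟩ := c.cell (x - 1) y
  have e := b.r
  rw [sub_add_cancel, a.l, geoH_tag c.large (by omega) (by omega) h3 h4] at e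
  obtain ⟨_, _, _, _, _, _⟩ := tag_inv e.symm
  exact b.congr rfl rfl (by omega) (by omega)

/-- The cell above a cell of a diagonal, towards the centre: bottom left. -/
theorem At.upBL (c : Cfg M h w) (a : At M h w x y d d) (hd : d + K < M) :
    At M h w (x + 1) (y + 1) (d + 1) (d + 1) := by
  have := one_le_K
  have hM := c.large
  -- the first coordinate, read from the edge shared with the cell to the right
  have key : ∀ {h w : ℤ → ℤ → GCol} {x y : ℤ}, Cfg M h w → At M h w x y d d →
      ∀ {p q : ℕ}, p < 2 * M → q < 2 * M → w (x + 1) (y + 1) = geoH M q p → q = d + 1 := by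
    intro h w x y c a p q hp hq e'
    obtain ⟨p', q', b⟩ := c.cell (x + 1) y
    have e := b.l.symm.trans a.r
    rw [geoH_bottom (i := d + 1) (by omega) (by omega) hd] at e
    obtain ⟨hq', hlt, _, _, hb⟩ := bottom_inv e
    have hp' : p' ≤ M := by
      simp only [decide_eq_decide] at hb
      omega
    have e2 := e'.symm.trans b.u
    rcases Nat.lt_or_ge (q' + 1 + K) M with hs | hs
    · rw [geoH_left (j := p') (by omega) hs (by omega) (by omega)] at e2
      obtain ⟨_, _, _, _, _, _⟩ := left_inv e2
      omega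
    · rw [geoH_tag hM (i := q' + 1) (j := p') (by omega) (by omega) (by omega) (by omega)] at e2
      obtain ⟨_, _, _, _, _, _⟩ := tag_inv e2
      omega
  obtain ⟨p, q, b⟩ := c.cell (x + 1) (y + 1)
  have e1 : q = d + 1 := key c a b.lt_i b.lt_j b.d
  have e2 : p = d + 1 := key c.swap a.swap b.lt_j b.lt_i b.l
  exact b.congr rfl rfl e2 e1

/-- The cell above a cell of a diagonal, towards the centre: bottom right. -/
theorem At.upBR (c : Cfg M h w) (a : At M h w x y i d) (hid : i + d + 1 = 2 * M)
    (hd : d + K < M) : At M h w (x - 1) (y + 1) (i - 1) (d + 1) := by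
  have := one_le_K
  have hM := c.large
  obtain ⟨p, q, b⟩ := c.cell (x - 1) (y + 1)
  have e1 : q = d + 1 := by
    obtain ⟨p', q', b'⟩ := c.cell (x - 1) y
    have e := b'.r
    rw [sub_add_cancel, a.l, geoH_bottom (i := i) (by omega) (by omega) hd] at e
    obtain ⟨hq', _, _, _, hb⟩ := bottom_inv e.symm
    simp only [decide_eq_decide] at hb
    have e2 := b.d.symm.trans b'.u
    rcases Nat.lt_or_ge (q' + 1 + K) M with hs | hs
    · rw [geoH_left (j := p') (by omega) hs (by omega) (by omega)] at e2
      obtain ⟨_, _, _, _, _, _⟩ := left_inv e2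
      omega
    · rw [geoH_tag hM (i := q' + 1) (j := p') (by omega) (by omega) (by omega) (by omega)] at e2
      obtain ⟨_, _, _, _, _, _⟩ := tag_inv e2
      omega
  have e2 : p + 1 = i := by
    obtain ⟨p', q', b'⟩ := c.cell x (y + 1)
    have e := b'.d.symm.trans a.u
    rw [geoH_top (i := d + 1) a.lt_i (by omega) (by omega) (by omega)] at e
    obtain ⟨hv, _, _, _, hb⟩ := top_inv b'.lt_i e
    simp only [decide_eq_decide] at hb
    have e2 := b.r
    rw [sub_add_cancel, b'.l] at e2
    have hp : p + 1 ≤ 2 * M := b.lt_i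
    rcases Nat.lt_or_ge (M + K) p' with hs | hs
    · rw [geoH_right (j := q') b'.lt_i hs (by omega) (by omega)] at e2
      obtain ⟨_, _, _, _, _, _⟩ := right_inv hp b.lt_j e2.symm
      omega
    · rw [geoH_tag hM (i := p') (j := q') (by omega) hs (by omega) (by omega)] at e2
      obtain ⟨_, _, _, _, _, _⟩ := tag_inv e2.symm
      omega
  exact b.congr rfl rfl (by omega) e1

/-- The cell below a cell of a diagonal, towards the centre: top right. -/
theorem At.downTR (c : Cfg M h w) (a : At M h w x y d d) (hd : M + K ≤ d) :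
    At M h w (x - 1) (y - 1) (d - 1) (d - 1) := by
  have := one_le_K
  have hM := c.large
  have key : ∀ {h w : ℤ → ℤ → GCol} {x y : ℤ}, Cfg M h w → At M h w x y d d →
      ∀ {p q : ℕ}, p < 2 * M → q < 2 * M → w (x - 1) y = geoH M (q + 1) p → q + 1 = d := by
    intro h w x y c a p q hp hq e'
    obtain ⟨p', q', b⟩ := c.cell (x - 1) y
    have e := b.r
    rw [sub_add_cancel, a.l, geoH_top a.lt_j (by omega) le_rfl hd] at e
    have := a.lt_i
    obtain ⟨hv, _, _, _, hb⟩ := top_inv b.lt_j e.symm
    simp only [decide_eq_decide] at hb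
    have e2 := e'.symm.trans b.d
    rcases Nat.lt_or_ge (M + K) q' with hs | hs
    · rw [geoH_right (j := p') b.lt_j hs (by omega) (by omega)] at e2
      obtain ⟨_, _, _, _, _, _⟩ := right_inv hq hp e2
      omega
    · rw [geoH_tag hM (i := q') (j := p') (by omega) hs (by omega) (by omega)] at e2
      obtain ⟨_, _, _, _, _, _⟩ := tag_inv e2
      omega
  obtain ⟨p, q, b⟩ := c.cell (x - 1) (y - 1)
  have eu := b.u
  have er := b.r
  rw [sub_add_cancel] at eu er
  have e1 : q + 1 = d := key c a b.lt_i b.lt_j eu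
  have e2 : p + 1 = d := key c.swap a.swap b.lt_j b.lt_i er
  exact b.congr rfl rfl (by omega) (by omega)

/-- A cell of the bottom zone: the edge above it determines the two edges after it. -/
theorem bottom_step (c : Cfg M h w) (hj : j < i) (hij : i + j + 1 < 2 * M) (hjK : j + K < M)
    (hu : w x (y + 1) = geoH M (j + 1) i) :
    h (x + 1) y = geoH M (i + 1) j ∧ w x y = geoH M j i ∧ (i < M → h x y = geoH M i j) := by
  have := one_le_K
  have hM := c.large
  obtain ⟨p, q, b⟩ := c.cell x y
  have e := b.u.symm.trans hu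
  have hq : q + 1 ≤ 2 * M := b.lt_j
  have key : q = j ∧ j < p ∧ p + j + 1 < 2 * M ∧ (M ≤ p ↔ M ≤ i) := by
    rcases Nat.lt_or_ge (j + 1 + K) M with hs | hs
    · rw [geoH_left (j := i) (by omega) hs (by omega) (by omega)] at e
      obtain ⟨_, _, _, _, _, hb⟩ := left_inv e
      simp only [decide_eq_decide] at hb
      omega
    · rw [geoH_tag hM (i := j + 1) (j := i) (by omega) (by omega) (by omega) (by omega)] at e
      obtain ⟨_, _, _, _, _, _⟩ := tag_inv e
      omega
  obtain ⟨rfl, h1, h2, h3⟩ := key
  refine ⟨?_, ?_, fun hiM => ?_⟩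
  · rw [b.r, geoH_bottom (i := p + 1) (by omega) (by omega) hjK,
      geoH_bottom (i := i + 1) (by omega) (by omega) hjK,
      decide_eq_decide.2 (show M < p + 1 ↔ M < i + 1 by omega)]
  · rw [b.d]
    rcases Nat.eq_zero_or_pos q with rfl | hq0
    · rw [geoH_outer (Or.inl rfl), geoH_outer (Or.inl rfl)]
      unfold outK
      simp only [show p ≠ 0 by omega, show i ≠ 0 by omega, show p + 1 ≠ 2 * M by omega,
        show i + 1 ≠ 2 * M by omega, if_false]
      congr 1
      split_ifs <;> first | rfl | omega
    · rw [geoH_left (j := p) hq0 hjK (by omega) (by omega),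
        geoH_left (j := i) hq0 hjK (by omega) (by omega),
        decide_eq_decide.2 h3]
  · rw [b.l, geoH_bottom h1 (by omega) hjK, geoH_bottom hj (by omega) hjK,
      decide_eq_decide.2 (show M < p ↔ M < i by omega)]

/-- A cell of the top zone: the edge below it determines the two edges after it. -/
theorem top_step (c : Cfg M h w) (hj : j < 2 * M) (hi : i < j) (hij : 2 * M ≤ i + j)
    (hjK : M + K ≤ j) (hd : w x y = geoH M j i) :
    h (x + 1) y = geoH M (i + 1) j ∧ w x (y + 1) = geoH M (j + 1) i ∧
      (i < M → h x y = geoH M i j) := by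
  have := one_le_K
  have hM := c.large
  obtain ⟨p, q, b⟩ := c.cell x y
  have e := b.d.symm.trans hd
  have key : q = j ∧ p < j ∧ 2 * M ≤ p + j ∧ (M ≤ p ↔ M ≤ i) := by
    rcases Nat.lt_or_ge (M + K) j with hs | hs
    · rw [geoH_right (j := i) hj hs (by omega) (by omega)] at e
      obtain ⟨_, _, _, _, _, hb⟩ := right_inv b.lt_j.le b.lt_i e
      simp only [decide_eq_decide] at hb
      omega
    · rw [geoH_tag hM (i := j) (j := i) (by omega) hs (by omega) (by omega)] at e
      obtain ⟨_, _, _, _, _, _⟩ := tag_inv e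
      omega
  obtain ⟨rfl, h1, h2, h3⟩ := key
  refine ⟨?_, ?_, fun hiM => ?_⟩
  · rw [b.r, geoH_top (i := p + 1) hj (by omega) (by omega) hjK,
      geoH_top (i := i + 1) hj (by omega) (by omega) hjK,
      decide_eq_decide.2 (show M < p + 1 ↔ M < i + 1 by omega)]
  · rw [b.u]
    rcases Nat.lt_or_ge (q + 1) (2 * M) with hq1 | hq1
    · rw [geoH_right (j := p) hq1 (by omega) (by omega) (by omega),
        geoH_right (j := i) hq1 (by omega) (by omega) (by omega), decide_eq_decide.2 h3]
    · rw [geoH_outer (Or.inr (by omega)), geoH_outer (Or.inr (by omega))]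
      unfold outK
      simp only [show p ≠ 0 by omega, show i ≠ 0 by omega, show p + 1 ≠ 2 * M by omega,
        show i + 1 ≠ 2 * M by omega, if_false]
      congr 1
      split_ifs <;> first | rfl | omega
  · rw [b.l, geoH_top (i := p) hj (by omega) (by omega) hjK,
      geoH_top (i := i) hj (by omega) (by omega) hjK,
      decide_eq_decide.2 (show M < p ↔ M < i by omega)]

/-- The bottom left corner of a ring is determined by its two inner edges. -/
theorem cornerBL (c : Cfg M h w) (hd : d + K < M) (hr : h (x + 1) y = geoH M (d + 1) d)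
    (hu : w x (y + 1) = geoH M (d + 1) d) : At M h w x y d d := by
  have := one_le_K
  have hM := c.large
  obtain ⟨p, q, b⟩ := c.cell x y
  have e1 := b.r.symm.trans hr
  have e2 := b.u.symm.trans hu
  rw [geoH_bottom (i := d + 1) (by omega) (by omega) hd] at e1 e2
  obtain ⟨_, _, _, _, _⟩ := bottom_inv e1
  obtain ⟨_, _, _, _, _⟩ := bottom_inv e2
  exact b.congr rfl rfl (by omega) (by omega)

/-- The top right corner of a ring is determined by its two inner edges. -/
theorem cornerTR (c : Cfg M h w) (hd : M + K ≤ d) (hd' : d < 2 * M) (hl : h x y = geoH M d d)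
    (hdn : w x y = geoH M d d) : At M h w x y d d := by
  have := one_le_K
  have hM := c.large
  obtain ⟨p, q, b⟩ := c.cell x y
  have e1 := b.l.symm.trans hl
  have e2 := b.d.symm.trans hdn
  rw [geoH_top hd' (by omega) le_rfl hd] at e1 e2
  obtain ⟨_, _, _, _, _⟩ := top_inv b.lt_j e1
  obtain ⟨_, _, _, _, _⟩ := top_inv b.lt_i e2
  exact b.congr rfl rfl (by omega) (by omega)

/-- The bottom right corner of a ring is determined by its two inner edges. -/
theorem cornerBR (c : Cfg M h w) (hid : i + d + 1 = 2 * M) (hd : d + K < M)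
    (hl : h x y = geoH M i d) (hu : w x (y + 1) = geoH M (d + 1) i) : At M h w x y i d := by
  have := one_le_K
  have hM := c.large
  obtain ⟨p, q, b⟩ := c.cell x y
  have e1 := b.l.symm.trans hl
  have e2 := b.u.symm.trans hu
  rw [geoH_bottom (i := i) (by omega) (by omega) hd] at e1
  rw [geoH_top (i := d + 1) (by omega) (by omega) (by omega) (by omega)] at e2
  obtain ⟨_, _, _, _, _⟩ := bottom_inv e1
  obtain ⟨_, _, _, _, _⟩ := top_inv b.lt_i e2
  exact b.congr rfl rfl (by omega) (by omega)

end Vale.Agent.P196.Full.Tiles.Geo
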