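import Vale.Agent.P196.Full.Tiles.Defs

/-!
# P196: the geometric colours of a block, region by region

The colour `geoH M i j` of a vertical edge is computed in each region of the block and, conversely,
a colour bounds the position of its edge.
-/

namespace Vale.Agent.P196.Full.Tiles.Geo

theorem one_le_K : 1 ≤ K := by
  unfold K
  generalize 2 ^ nS = P
  omega

theorem four_K_le_lvl (s : ℕ) : 4 * K ≤ lvl s := by
  unfold lvl M0
  omega

variable {M i j : ℕ}

theorem GCol.tr_tr (g : GCol) : g.tr.tr = g := by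
  cases g with
  | outer k => rfl
  | tag a b => rfl
  | side z hi v => fin_cases z <;> rfl

theorem geoV_tr (M i j : ℕ) : (geoV M i j).tr = geoH M j i := GCol.tr_tr _

/-- The kind of an outer side. -/
def outK (M j : ℕ) : Fin 4 :=
  if j = 0 then 0 else if j + 1 = 2 * M then 1 else if j < M then 2 else 3

theorem geoH_outer (hi : i = 0 ∨ i = 2 * M) : geoH M i j = .outer (outK M j) := by
  unfold geoH
  rw [if_pos hi]
  rfl

theorem geoH_tag (hM : 4 * K ≤ M) (h1 : M ≤ i + K) (h2 : i ≤ M + K) (h3 : M ≤ j + K)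
    (h4 : j < M + K) : geoH M i j = .tag (i + K - M) (j + K - M) := by
  have := one_le_K
  unfold geoH
  rw [if_neg (by omega), if_pos ⟨h1, h2, h3, h4⟩]

theorem geoH_bottom (h1 : j < i) (h2 : i + j < 2 * M) (h3 : j + K < M) :
    geoH M i j = .side 0 (decide (M < i)) j := by
  unfold geoH
  rw [if_neg (by omega), if_neg (by omega), if_pos]
  simp only [lt_min_iff]
  omega

theorem geoH_top (hj : j < 2 * M) (h1 : 2 * M < i + j + 1) (h2 : i ≤ j) (h3 : M + K ≤ j) :
    geoH M i j = .side 1 (decide (M < i)) (2 * M - 1 - j) := by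
  unfold geoH
  rw [if_neg (by omega), if_neg (by omega), if_neg, if_pos]
  · simp only [lt_min_iff]
    omega
  · simp only [lt_min_iff]
    omega

theorem geoH_left (h0 : 0 < i) (h1 : i + K < M) (h2 : i ≤ j) (h3 : i + j < 2 * M) :
    geoH M i j = .side 2 (decide (M ≤ j)) i := by
  unfold geoH
  rw [if_neg (by omega), if_neg (by omega), if_neg, if_neg, if_pos (by omega)]
  · simp only [lt_min_iff]
    omega
  · simp only [lt_min_iff]
    omega

theorem geoH_right (h0 : i < 2 * M) (h1 : M + K < i) (h2 : j < i) (h3 : 2 * M ≤ i + j) :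
    geoH M i j = .side 3 (decide (M ≤ j)) (2 * M - i) := by
  unfold geoH
  rw [if_neg (by omega), if_neg (by omega), if_neg, if_neg, if_neg (by omega)]
  · simp only [lt_min_iff]
    omega
  · simp only [lt_min_iff]
    omega

theorem outer_inv {k : Fin 4} (h : geoH M i j = .outer k) :
    (i = 0 ∨ i = 2 * M) ∧ outK M j = k := by
  by_cases hi : i = 0 ∨ i = 2 * M
  · rw [geoH_outer hi] at h
    exact ⟨hi, GCol.outer.inj h⟩
  · exfalso
    unfold geoH at h
    rw [if_neg hi] at h
    split_ifs at h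

theorem tag_inv {a b : ℕ} (h : geoH M i j = .tag a b) :
    M ≤ i + K ∧ i ≤ M + K ∧ M ≤ j + K ∧ j < M + K ∧ a = i + K - M ∧ b = j + K - M := by
  unfold geoH at h
  split_ifs at h with h0 h1
  obtain ⟨rfl, rfl⟩ := GCol.tag.inj h
  exact ⟨h1.1, h1.2.1, h1.2.2.1, h1.2.2.2, rfl, rfl⟩

theorem bottom_inv {b : Bool} {v : ℕ} (h : geoH M i j = .side 0 b v) :
    j = v ∧ j < i ∧ i + j < 2 * M ∧ j < M ∧ b = decide (M < i) := by
  unfold geoH at h
  split_ifs at h with h0 h1 h2 h3 h4
  all_goals obtain ⟨hz, hb, hv⟩ := GCol.side.inj h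
  all_goals first
    | exact absurd hz (by decide)
    | (simp only [lt_min_iff] at h2
       refine ⟨hv, ?_, ?_, ?_, hb.symm⟩ <;> omega)

theorem top_inv (hj : j < 2 * M) {b : Bool} {v : ℕ} (h : geoH M i j = .side 1 b v) :
    j + v + 1 = 2 * M ∧ 2 * M < i + j + 1 ∧ i ≤ j ∧ M ≤ j ∧ b = decide (M < i) := by
  unfold geoH at h
  split_ifs at h with h0 h1 h2 h3 h4
  all_goals obtain ⟨hz, hb, hv⟩ := GCol.side.inj h
  all_goals first
    | exact absurd hz (by decide)
    | (simp only [lt_min_iff] at h2 h3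
       refine ⟨?_, ?_, ?_, ?_, hb.symm⟩ <;> omega)

theorem left_inv {b : Bool} {v : ℕ} (h : geoH M i j = .side 2 b v) :
    i = v ∧ 0 < i ∧ i < M ∧ i ≤ j ∧ i + j < 2 * M ∧ b = decide (M ≤ j) := by
  unfold geoH at h
  split_ifs at h with h0 h1 h2 h3 h4
  all_goals obtain ⟨hz, hb, hv⟩ := GCol.side.inj h
  all_goals first
    | exact absurd hz (by decide)
    | (simp only [lt_min_iff] at h2 h3
       refine ⟨hv, ?_, ?_, ?_, ?_, hb.symm⟩ <;> omega)

theorem right_inv (hi : i ≤ 2 * M) (hj : j < 2 * M) {b : Bool} {v : ℕ}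
    (h : geoH M i j = .side 3 b v) :
    i + v = 2 * M ∧ i < 2 * M ∧ M < i ∧ j < i ∧ 2 * M ≤ i + j ∧ b = decide (M ≤ j) := by
  have := one_le_K
  unfold geoH at h
  split_ifs at h with h0 h1 h2 h3 h4
  all_goals obtain ⟨hz, hb, hv⟩ := GCol.side.inj h
  all_goals first
    | exact absurd hz (by decide)
    | (simp only [lt_min_iff] at h2 h3
       refine ⟨?_, ?_, ?_, ?_, ?_, hb.symm⟩ <;> omega)

end Vale.Agent.P196.Full.Tiles.Geo
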